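import Vale.Agent.P065.UB.H822.Area
import Vale.Agent.P065.UB.H822.Core
import Vale.Agent.P065.H183.JView
import Vale.Agent.P065.UB.H415.Frame

/-!
# P065, upper bound, line U, block [DIM] (helper549): the real inequalities

Notation of the note of 21:57: `S` is a set of abscissa range `≤ U` whose heights in a direction
`st` differ by at most `2 H`, and every dense subset contains a triangle of (double) area
`≥ 8 ρ U H` (this is (NC)).

* `light_vert`, `light_line`: strips of relative width `ρ` are light;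
* `ext_ge`: a class function varies by at least `(2 / 125) ρ ^ 5 U / H` on a dense set;
* `zw_le`: the chart windows of short windows are short;
* `scale_le`: the normalising factor of a class.
-/

set_option autoImplicit false

namespace Vale.Agent.P065.H549

open Finset Vale.Agent.P065.UB Vale.Agent.P065.H183
open Vale.Agent.P065.UB.H822 Vale.Agent.P065.UB.H616 Vale.Agent.P065.UB.H415

/-- twice the area of a triangle of points -/
def dt (p q s : Pt) : ℝ := det3 p.1 p.2 q.1 q.2 s.1 s.2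

theorem dt_ht (m : ℝ) (p q s : Pt) :
    dt p q s = (q.1 - p.1) * (ht m s - ht m p) - (s.1 - p.1) * (ht m q - ht m p) := by
  unfold dt det3 ht; ring

theorem abs_dt_le {m a b : ℝ} {p q s : Pt} (h1 : |q.1 - p.1| ≤ a) (h2 : |s.1 - p.1| ≤ a)
    (h3 : |ht m q - ht m p| ≤ b) (h4 : |ht m s - ht m p| ≤ b) : |dt p q s| ≤ 2 * a * b := by
  rw [dt_ht m]
  have ha : 0 ≤ a := (abs_nonneg _).trans h1
  calc |(q.1 - p.1) * (ht m s - ht m p) - (s.1 - p.1) * (ht m q - ht m p)|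
      ≤ |(q.1 - p.1) * (ht m s - ht m p)| + |(s.1 - p.1) * (ht m q - ht m p)| := abs_sub _ _
    _ ≤ a * b + a * b := by
        rw [abs_mul, abs_mul]
        exact add_le_add (mul_le_mul h1 h4 (abs_nonneg _) ha) (mul_le_mul h2 h3 (abs_nonneg _) ha)
    _ = 2 * a * b := by ring

/-- (NC): every dense subset of `S` contains a big triangle -/
def NC (N K2 L : ℝ) (S : Finset Pt) : Prop :=
  ∀ T : Finset Pt, T ⊆ S → N ≤ K2 * #T → ∃ p ∈ T, ∃ q ∈ T, ∃ s ∈ T, L ≤ |dt p q s|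

open Classical in
/-- vertical strips are light -/
theorem light_vert {N K2 ρ U H st : ℝ} {S : Finset Pt} (hρ : 0 < ρ) (hU : 0 < U) (hH : 0 < H)
    (hy : ∀ p ∈ S, ∀ q ∈ S, |ht st q - ht st p| ≤ 2 * H) (hNC : NC N K2 (8 * ρ * (U * H)) S)
    (a : ℝ) : K2 * #{q ∈ S | a ≤ q.1 ∧ q.1 ≤ a + ρ * U} ≤ N := by
  by_contra hcon
  push Not at hcon
  obtain ⟨p, hp, q, hq, s, hs, h⟩ := hNC _ (filter_subset _ _) hcon.le
  obtain ⟨hp1, hp2, hp3⟩ := mem_filter.1 hp
  obtain ⟨hq1, hq2, hq3⟩ := mem_filter.1 hq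
  obtain ⟨hs1, hs2, hs3⟩ := mem_filter.1 hs
  have h1 : |q.1 - p.1| ≤ ρ * U := by rw [abs_le]; constructor <;> linarith
  have h2 : |s.1 - p.1| ≤ ρ * U := by rw [abs_le]; constructor <;> linarith
  have h3 := abs_dt_le h1 h2 (hy p hp1 q hq1) (hy p hp1 s hs1)
  have h4 : 0 < ρ * (U * H) := by positivity
  nlinarith

open Classical in
/-- strips around lines are light -/
theorem light_line {N K2 ρ U H : ℝ} {S : Finset Pt} (hρ : 0 < ρ) (hU : 0 < U) (hH : 0 < H)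
    (hx : ∀ p ∈ S, ∀ q ∈ S, |q.1 - p.1| ≤ U) (hNC : NC N K2 (8 * ρ * (U * H)) S)
    (m h0 : ℝ) : K2 * #{q ∈ S | |ht m q - h0| ≤ ρ * H} ≤ N := by
  by_contra hcon
  push Not at hcon
  obtain ⟨p, hp, q, hq, s, hs, h⟩ := hNC _ (filter_subset _ _) hcon.le
  obtain ⟨hp1, hp2⟩ := mem_filter.1 hp
  obtain ⟨hq1, hq2⟩ := mem_filter.1 hq
  obtain ⟨hs1, hs2⟩ := mem_filter.1 hs
  have hp2' := abs_le.1 hp2
  have hq2' := abs_le.1 hq2
  have hs2' := abs_le.1 hs2
  have h1 : |ht m q - ht m p| ≤ 2 * (ρ * H) := by rw [abs_le]; constructor <;> linarith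
  have h2 : |ht m s - ht m p| ≤ 2 * (ρ * H) := by rw [abs_le]; constructor <;> linarith
  have h3 := abs_dt_le (hx p hp1 q hq1) (hx p hp1 s hs1) h1 h2
  have h4 : 0 < ρ * (U * H) := by positivity
  nlinarith

/-- the frame of `S`: abscissa range and height -/
theorem exists_frame {S : Finset Pt} {N K2 L A : ℝ} (hxinj : ∀ p ∈ S, ∀ q ∈ S, p.1 = q.1 → p = q)
    (hL : 0 < L) (hNC : NC N K2 L S) (hS : N ≤ K2 * #S)
    (hA : ∀ p ∈ S, ∀ q ∈ S, ∀ s ∈ S, |dt p q s| ≤ A) :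
    ∃ U H st : ℝ, 0 < U ∧ 0 < H ∧ U * H ≤ A ∧ (∀ p ∈ S, ∀ q ∈ S, |q.1 - p.1| ≤ U) ∧
      (∀ p ∈ S, ∀ q ∈ S, |ht st q - ht st p| ≤ 2 * H) := by
  obtain ⟨p0, hp0, q0, hq0, s0, hs0, h0⟩ := hNC S (Subset.refl _) hS
  have hSne : S.Nonempty := ⟨p0, hp0⟩
  obtain ⟨a, ha, hmin⟩ := exists_min_image S (fun p => p.1) hSne
  obtain ⟨b, hb, hmax⟩ := exists_max_image S (fun p => p.1) hSne
  obtain ⟨t, htS, hmaxh⟩ := exists_max_image S
    (fun p => |ht (sl a b) p - ht (sl a b) a|) hSne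
  set m := sl a b with hm
  have hx : ∀ p ∈ S, ∀ q ∈ S, |q.1 - p.1| ≤ b.1 - a.1 := by
    intro p hp q hq
    have h1 := hmin p hp
    have h2 := hmin q hq
    have h3 := hmax p hp
    have h4 := hmax q hq
    rw [abs_le]; constructor <;> linarith
  have hy : ∀ p ∈ S, ∀ q ∈ S, |ht m q - ht m p| ≤ 2 * |ht m t - ht m a| := by
    intro p hp q hq
    have h1 := hmaxh p hp
    have h2 := hmaxh q hq
    have h3 : ht m q - ht m p = (ht m q - ht m a) - (ht m p - ht m a) := by ring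
    rw [h3]
    exact (abs_sub _ _).trans (by linarith)
  have hdt := abs_dt_le (hx p0 hp0 q0 hq0) (hx p0 hp0 s0 hs0) (hy p0 hp0 q0 hq0)
    (hy p0 hp0 s0 hs0)
  have hU0 : 0 ≤ b.1 - a.1 := (abs_nonneg _).trans (hx p0 hp0 q0 hq0)
  have hH0 : 0 ≤ |ht m t - ht m a| := abs_nonneg _
  have hpos : 0 < (b.1 - a.1) * |ht m t - ht m a| := by
    have : 0 < 2 * (b.1 - a.1) * (2 * |ht m t - ht m a|) := lt_of_lt_of_le hL (h0.trans hdt)
    nlinarith
  have hU : 0 < b.1 - a.1 := by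
    rcases hU0.lt_or_eq with h | h
    · exact h
    · rw [← h, zero_mul] at hpos; exact absurd hpos (lt_irrefl _)
  have hH : 0 < |ht m t - ht m a| := by
    rcases hH0.lt_or_eq with h | h
    · exact h
    · rw [← h, mul_zero] at hpos; exact absurd hpos (lt_irrefl _)
  have hab : ht m b - ht m a = 0 := by
    have hne : b.1 - a.1 ≠ 0 := hU.ne'
    rw [hm]; unfold ht sl
    field_simp
    ring
  have hdtA := hA a ha b hb t htS
  rw [dt_ht m, hab, mul_zero, sub_zero, abs_mul, abs_of_pos hU] at hdtA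
  exact ⟨b.1 - a.1, |ht m t - ht m a|, m, hU, hH, hdtA, hx, hy⟩

/-- a steep joined pair has close abscissas -/
theorem close_of_steep {st σ H : ℝ} {p q : Pt} (hpq : p.1 ≠ q.1) (hσ : 0 < σ)
    (hs : σ < |sl p q - st|) (hh : |ht st q - ht st p| ≤ 2 * H) : σ * |q.1 - p.1| ≤ 2 * H := by
  have h1 : ht st q - ht st p = (sl p q - st) * (q.1 - p.1) := by
    have h' : q.1 - p.1 ≠ 0 := sub_ne_zero.2 (Ne.symm hpq)
    unfold ht sl
    field_simp
    ring
  rw [h1, abs_mul] at hh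
  exact (mul_le_mul_of_nonneg_right hs.le (abs_nonneg _)).trans hh

/-! ### extent of the class functions on a dense set -/

/-- determinant in the chart, for the class function `x - u y` -/
theorem chart_dt {m0 u : ℝ} {c p q s : Pt} (hp : chV m0 c p ≠ 0) (hq : chV m0 c q ≠ 0)
    (hs : chV m0 c s ≠ 0) :
    dt p q s = -(chV m0 c p * chV m0 c q * chV m0 c s *
      (((chX m0 c q - u * chY m0 c q) - (chX m0 c p - u * chY m0 c p)) *
          (chY m0 c s - chY m0 c p)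
        - ((chX m0 c s - u * chY m0 c s) - (chX m0 c p - u * chY m0 c p)) *
          (chY m0 c q - chY m0 c p))) := by
  have h1 : dt p q s = det3 (chU c p) (chV m0 c p) (chU c q) (chV m0 c q) (chU c s)
      (chV m0 c s) := by
    unfold dt det3 chU chV ht; ring
  rw [h1, det_chart hp hq hs]
  unfold det3 chX chY
  ring

/-- **extent**: a class function varies a lot on a big triangle -/
theorem ext_of_big {m0 u v0 V e L : ℝ} {c p q s : Pt} (hv0 : 0 < v0)
    (hp : v0 ≤ |chV m0 c p|) (hq : v0 ≤ |chV m0 c q|) (hs : v0 ≤ |chV m0 c s|)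
    (hp' : |chV m0 c p| ≤ V) (hq' : |chV m0 c q| ≤ V) (hs' : |chV m0 c s| ≤ V)
    (h1 : |(chX m0 c q - u * chY m0 c q) - (chX m0 c p - u * chY m0 c p)| ≤ e)
    (h2 : |(chX m0 c s - u * chY m0 c s) - (chX m0 c p - u * chY m0 c p)| ≤ e)
    (hL : L ≤ |dt p q s|) : L * v0 ≤ 4 * V ^ 3 * e := by
  have hpn : chV m0 c p ≠ 0 := abs_pos.1 (lt_of_lt_of_le hv0 hp)
  have hqn : chV m0 c q ≠ 0 := abs_pos.1 (lt_of_lt_of_le hv0 hq)
  have hsn : chV m0 c s ≠ 0 := abs_pos.1 (lt_of_lt_of_le hv0 hs)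
  have hV : 0 ≤ V := (abs_nonneg _).trans hp'
  have he : 0 ≤ e := (abs_nonneg _).trans h1
  have hy : ∀ z : Pt, v0 ≤ |chV m0 c z| → |chY m0 c z| ≤ 1 / v0 := by
    intro z hz
    unfold chY
    rw [abs_div, abs_one]
    exact one_div_le_one_div_of_le hv0 hz
  have hyd : ∀ z : Pt, v0 ≤ |chV m0 c z| → |chY m0 c z - chY m0 c p| ≤ 2 / v0 := by
    intro z hz
    have h3 := hy z hz
    have h4 := hy p hp
    calc |chY m0 c z - chY m0 c p| ≤ |chY m0 c z| + |chY m0 c p| := abs_sub _ _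
      _ ≤ 1 / v0 + 1 / v0 := add_le_add h3 h4
      _ = 2 / v0 := by ring
  have hbr : |(((chX m0 c q - u * chY m0 c q) - (chX m0 c p - u * chY m0 c p)) *
          (chY m0 c s - chY m0 c p)
        - ((chX m0 c s - u * chY m0 c s) - (chX m0 c p - u * chY m0 c p)) *
          (chY m0 c q - chY m0 c p))| ≤ e * (2 / v0) + e * (2 / v0) := by
    refine (abs_sub _ _).trans ?_
    rw [abs_mul, abs_mul]
    exact add_le_add (mul_le_mul h1 (hyd s hs) (abs_nonneg _) he)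
      (mul_le_mul h2 (hyd q hq) (abs_nonneg _) he)
  have hvv : |chV m0 c p * chV m0 c q * chV m0 c s| ≤ V * V * V := by
    rw [abs_mul, abs_mul]
    exact mul_le_mul (mul_le_mul hp' hq' (abs_nonneg _) hV) hs' (abs_nonneg _) (by positivity)
  have htot : |dt p q s| ≤ (V * V * V) * (e * (2 / v0) + e * (2 / v0)) := by
    rw [chart_dt (u := u) hpn hqn hsn, abs_neg, abs_mul]
    exact mul_le_mul hvv hbr (abs_nonneg _) (by positivity)
  have h5 : L ≤ 4 * V ^ 3 * e / v0 := by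
    refine hL.trans (htot.trans (le_of_eq ?_))
    ring
  rwa [le_div_iff₀ hv0] at h5

/-- **extent on a dense set** -/
theorem ext_ge {N K2 ρ U H m0 u V e : ℝ} {c : Pt} {S T : Finset Pt} (hρ : 0 < ρ) (hU : 0 < U)
    (hH : 0 < H) (hNC : NC N K2 (8 * ρ * (U * H)) S) (hTS : T ⊆ S) (hT : N ≤ K2 * #T)
    (hV : V = 5 * H / ρ)
    (hlow : ∀ q ∈ T, ρ * H ≤ |chV m0 c q|) (hup : ∀ q ∈ T, |chV m0 c q| ≤ V)
    (hext : ∀ p ∈ T, ∀ q ∈ T,
      |(chX m0 c q - u * chY m0 c q) - (chX m0 c p - u * chY m0 c p)| ≤ e) :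
    2 * ρ ^ 5 * (U / H) ≤ 125 * e := by
  obtain ⟨p, hp, q, hq, s, hs, hL⟩ := hNC T hTS hT
  have h := ext_of_big (u := u) (V := V) (by positivity) (hlow p hp) (hlow q hq) (hlow s hs)
    (hup p hp) (hup q hq) (hup s hs) (hext p hp q hq) (hext p hp s hs) hL
  rw [hV] at h
  have e1 : 4 * (5 * H / ρ) ^ 3 * e = 500 * (H ^ 3 / ρ ^ 3) * e := by ring
  rw [e1] at h
  have h2 : 8 * ρ * (U * H) * (ρ * H) * ρ ^ 3 ≤ 500 * H ^ 3 * e := by
    have h3 := mul_le_mul_of_nonneg_right h (by positivity : (0 : ℝ) ≤ ρ ^ 3)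
    have e2 : 500 * (H ^ 3 / ρ ^ 3) * e * ρ ^ 3 = 500 * H ^ 3 * e := by field_simp
    rwa [e2] at h3
  have h4 : 8 * ρ ^ 5 * U ≤ 500 * H * e := by
    have h5 : (8 * ρ ^ 5 * U) * H ^ 2 ≤ (500 * H * e) * H ^ 2 := by nlinarith
    exact le_of_mul_le_mul_right h5 (by positivity)
  have h6 : 2 * ρ ^ 5 * U ≤ 125 * e * H := by linarith
  rw [← mul_div_assoc, div_le_iff₀ hH]
  exact h6

/-- heights over `l0` are bounded on `S` -/
theorem chV_le {ρ η U H st m0 : ℝ} {c q : Pt} (hρ : 0 < ρ) (hρ1 : ρ ≤ 1) (hη1 : η ≤ 1)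
    (hU : 0 < U) (hH : 0 < H) (hx : |q.1 - c.1| ≤ U) (hy : |ht st q - ht st c| ≤ 2 * H)
    (hm : |m0 - st| ≤ (2 / ρ + η) * (H / U)) : |chV m0 c q| ≤ 5 * H / ρ := by
  have e : chV m0 c q = (ht st q - ht st c) - (m0 - st) * (q.1 - c.1) := by
    unfold chV ht; ring
  rw [e]
  have h1 : |(m0 - st) * (q.1 - c.1)| ≤ (2 / ρ + η) * H := by
    rw [abs_mul]
    calc |m0 - st| * |q.1 - c.1| ≤ (2 / ρ + η) * (H / U) * U := by
          apply mul_le_mul hm hx (abs_nonneg _)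
          exact (abs_nonneg _).trans hm
      _ = (2 / ρ + η) * H := by field_simp
  have h2 : 1 ≤ 1 / ρ := by rw [le_div_iff₀ hρ]; linarith
  have h3 : (2 / ρ + η) * H ≤ (2 / ρ + 1 / ρ) * H :=
    mul_le_mul_of_nonneg_right (by linarith) hH.le
  calc |(ht st q - ht st c) - (m0 - st) * (q.1 - c.1)|
      ≤ |ht st q - ht st c| + |(m0 - st) * (q.1 - c.1)| := abs_sub _ _
    _ ≤ 2 * H * (1 / ρ) + (2 / ρ + 1 / ρ) * H := by
        have h4 : 2 * H ≤ 2 * H * (1 / ρ) := by nlinarith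
        linarith
    _ = 5 * H / ρ := by ring

/-! ### widths -/

/-- chart windows of short windows far from `m0` are short -/
theorem zw_le {m0 s s' μ η : ℝ} (hμ : 0 < μ) (hs : μ ≤ |s - m0|) (hss : |s - s'| ≤ η)
    (hη : 2 * η ≤ μ) : |zt m0 s - zt m0 s'| ≤ 2 * η / μ ^ 2 := by
  have h1 : s - m0 ≠ 0 := abs_pos.1 (lt_of_lt_of_le hμ hs)
  have h2 : μ / 2 ≤ |s' - m0| := by
    have h3 : |s - m0| ≤ |s - s'| + |s' - m0| := by
      have : s - m0 = (s - s') + (s' - m0) := by ring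
      rw [this]; exact abs_add_le _ _
    linarith
  have h4 : s' - m0 ≠ 0 := abs_pos.1 (lt_of_lt_of_le (by positivity) h2)
  have e : zt m0 s - zt m0 s' = (s' - s) / ((s - m0) * (s' - m0)) := by
    unfold zt; field_simp; ring
  have hη0 : 0 ≤ η := (abs_nonneg _).trans hss
  rw [e, abs_div, abs_mul, abs_sub_comm s' s]
  have h5 : μ * (μ / 2) ≤ |s - m0| * |s' - m0| := mul_le_mul hs h2 (by positivity) (abs_nonneg _)
  calc |s - s'| / (|s - m0| * |s' - m0|) ≤ η / (μ * (μ / 2)) :=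
        div_le_div₀ hη0 hss (by positivity) h5
    _ = 2 * η / μ ^ 2 := by field_simp

/-- slope of `a' q` relative to `m0`, from the class function -/
theorem slope_ge {ρ U H m0 : ℝ} {c a q : Pt} (hU : 0 < U) (haq : a.1 ≠ q.1)
    (hv : ρ * H ≤ |chV m0 c q|) (hρH : 0 < ρ * H) (hx : |q.1 - a.1| ≤ U) :
    ρ * H / U ≤ |sl (prj m0 c a) q - m0| := by
  have h0 := chV_eq m0 c (p := prj m0 c a) (v := q) haq
  rw [chV_prj, sub_zero] at h0
  have h1 : (prj m0 c a).1 = a.1 := rfl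
  rw [h1] at h0
  rw [h0, abs_mul] at hv
  have hne : 0 < |q.1 - a.1| := abs_pos.2 (sub_ne_zero.2 (Ne.symm haq))
  rw [div_le_iff₀ hU]
  exact hv.trans (mul_le_mul_of_nonneg_left hx (abs_nonneg _))

/-- **widths**: the class value of a flag is within `2 η U / (ρ ^ 2 H)` of every point of the
chart window -/
theorem width_le {ρ η U H m0 s' : ℝ} {c a q : Pt} (hρ : 0 < ρ) (hU : 0 < U) (hH : 0 < H)
    (hη : 2 * η ≤ ρ) (haq : a.1 ≠ q.1) (hv : ρ * H ≤ |chV m0 c q|) (hx : |q.1 - a.1| ≤ U)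
    (hss : |sl (prj m0 c a) q - s'| ≤ η * (H / U)) :
    |cf m0 c a q - zt m0 s'| ≤ 2 * η * U / (ρ ^ 2 * H) := by
  have hρH : 0 < ρ * H := by positivity
  have hvn : chV m0 c q ≠ 0 := abs_pos.1 (lt_of_lt_of_le hρH hv)
  rw [cf_eq haq hvn]
  have h1 := slope_ge hU haq hv hρH hx
  have h2 := zw_le (m0 := m0) (by positivity) h1 hss (by
    have : 2 * (η * (H / U)) = 2 * η * (H / U) := by ring
    rw [this, mul_div_assoc ρ H U]
    exact mul_le_mul_of_nonneg_right hη (by positivity))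
  refine h2.trans (le_of_eq ?_)
  field_simp

/-- the normalising factor of a class -/
theorem scale_le {c3 ca : ℝ} (h : |ca| ≤ 2 * |c3|) : |1 + ca| ≤ 3 * max 1 |c3| := by
  have h1 : |1 + ca| ≤ 1 + |ca| := by
    refine (abs_add_le _ _).trans ?_
    rw [abs_one]
  have h2 := le_max_left (1 : ℝ) |c3|
  have h3 := le_max_right (1 : ℝ) |c3|
  linarith

end Vale.Agent.P065.H549
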