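import Vale.Agent.P065.H549.Dim1
import Vale.Agent.P065.H537.Restrict

/-!
# P065, upper bound, line U, block [NORMDROP] (helper549)

In a set `S` whose vertical strips of relative width `ρ` are light, the windows whose slopes are
far from `st` are few (their joined pairs have close abscissas), and so are the windows near `st`
longer than `η H / U` (disjoint intervals). The remaining windows form again a `JView`.
-/

set_option autoImplicit false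

namespace Vale.Agent.P065.H549

open Finset Vale.Agent.P065.UB Vale.Agent.P065.H183
open Vale.Agent.P065.UB.H822 Vale.Agent.P065.UB.H616 Vale.Agent.P065.UB.H415

/-- the window `w` meets `[st - σ, st + σ]` and is shorter than `l` -/
def Short (I : ℕ → Set ℝ) (st σ l : ℝ) (w : ℕ) : Prop :=
  (∃ s ∈ I w, |s - st| ≤ σ) ∧ ∀ s ∈ I w, ∀ t ∈ I w, t < s + l

theorem Short.abs_sub_le {I : ℕ → Set ℝ} {st σ l : ℝ} {w : ℕ} (h : Short I st σ l w) {s t : ℝ}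
    (hs : s ∈ I w) (ht : t ∈ I w) : |s - t| ≤ l := by
  have h1 := h.2 s hs t ht
  have h2 := h.2 t ht s hs
  rw [abs_le]; constructor <;> linarith

theorem Short.near {I : ℕ → Set ℝ} {st σ l : ℝ} {w : ℕ} (h : Short I st σ l w) {s : ℝ}
    (hs : s ∈ I w) : |s - st| ≤ σ + l := by
  obtain ⟨t, ht, h1⟩ := h.1
  have h2 := h.abs_sub_le hs ht
  have e : s - st = (s - t) + (t - st) := by ring
  rw [e]
  refine (abs_add_le _ _).trans ?_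
  linarith

open Classical in
/-- many joined pairs in a window -/
theorem many_pairs {K lam : ℝ} {Q : Finset Pt} {W : Finset ℕ} {I : ℕ → Set ℝ}
    {R : ℕ → Finset Pt} (h : JView K lam Q W I R) (hQ : 2 * K ^ 7 * lam ^ 2 ≤ (#Q : ℝ) ^ 2)
    (hQ0 : 0 < (#Q : ℝ)) {w : ℕ} (hw : w ∈ W) :
    (#Q : ℝ) ^ 2 ≤ 2 * K ^ 7 * lam ^ 2 * #(Sw (R w) (I w)) := by
  have hK := h.two
  have hlam := h.one
  have hK0 : 0 < K := by linarith
  have hl0 : 0 < lam := by linarith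
  have h1 := h.join w hw (R w) (Subset.refl _)
  have h2 := h.cardR' w hw
  have h3 : (#Q : ℝ) ^ 6 ≤ (K * lam * #(R w)) ^ 6 := pow_le_pow_left₀ hQ0.le h2 6
  have h4 : lam ^ 4 * (#Q : ℝ) ^ 6 ≤
      K ^ 6 * lam ^ 6 * (K * (#Q : ℝ) ^ 4 * (#(Sw (R w) (I w)) + 1)) := by
    calc lam ^ 4 * (#Q : ℝ) ^ 6 ≤ lam ^ 4 * (K * lam * #(R w)) ^ 6 :=
          mul_le_mul_of_nonneg_left h3 (by positivity)
      _ = K ^ 6 * lam ^ 6 * (lam ^ 4 * (#(R w) : ℝ) ^ 6) := by ring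
      _ ≤ _ := mul_le_mul_of_nonneg_left h1 (by positivity)
  have h5 : (#Q : ℝ) ^ 2 ≤ K ^ 7 * lam ^ 2 * (#(Sw (R w) (I w)) + 1) := by
    have h6 : (lam ^ 4 * (#Q : ℝ) ^ 4) * (#Q : ℝ) ^ 2 ≤
        (lam ^ 4 * (#Q : ℝ) ^ 4) * (K ^ 7 * lam ^ 2 * (#(Sw (R w) (I w)) + 1)) := by
      calc (lam ^ 4 * (#Q : ℝ) ^ 4) * (#Q : ℝ) ^ 2 = lam ^ 4 * (#Q : ℝ) ^ 6 := by ring
        _ ≤ _ := h4
        _ = _ := by ring
    exact le_of_mul_le_mul_left h6 (by positivity)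
  linarith

open Classical in
/-- the number of pairs with close abscissas -/
theorem close_pairs {K2 ρU : ℝ} {N : ℝ} {S : Finset Pt} (hK2 : 0 < K2)
    (hstrip : ∀ a : ℝ, K2 * #{q ∈ S | a ≤ q.1 ∧ q.1 ≤ a + ρU} ≤ N) :
    K2 * #{e ∈ S ×ˢ S | e.1.1 < e.2.1 ∧ |e.2.1 - e.1.1| ≤ ρU} ≤ #S * N := by
  have h1 : {e ∈ S ×ˢ S | e.1.1 < e.2.1 ∧ |e.2.1 - e.1.1| ≤ ρU} ⊆
      S.biUnion fun p => ({q ∈ S | p.1 ≤ q.1 ∧ q.1 ≤ p.1 + ρU}).image fun q => (p, q) := by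
    intro e he
    obtain ⟨he1, he2, he3⟩ := mem_filter.1 he
    obtain ⟨hp, hq⟩ := mem_product.1 he1
    have h4 := abs_le.1 he3
    exact mem_biUnion.2 ⟨e.1, hp, mem_image.2
      ⟨e.2, mem_filter.2 ⟨hq, he2.le, by linarith [h4.2]⟩, rfl⟩⟩
  have h2 : (#{e ∈ S ×ˢ S | e.1.1 < e.2.1 ∧ |e.2.1 - e.1.1| ≤ ρU} : ℝ) ≤
      ∑ p ∈ S, (#{q ∈ S | p.1 ≤ q.1 ∧ q.1 ≤ p.1 + ρU} : ℝ) := by
    have h3 := (card_le_card h1).trans card_biUnion_le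
    have h4 : ∑ p ∈ S, #(({q ∈ S | p.1 ≤ q.1 ∧ q.1 ≤ p.1 + ρU}).image fun q => (p, q)) ≤
        ∑ p ∈ S, #{q ∈ S | p.1 ≤ q.1 ∧ q.1 ≤ p.1 + ρU} :=
      sum_le_sum fun p _ => card_image_le
    exact_mod_cast h3.trans h4
  calc K2 * (#{e ∈ S ×ˢ S | e.1.1 < e.2.1 ∧ |e.2.1 - e.1.1| ≤ ρU} : ℝ)
      ≤ K2 * ∑ p ∈ S, (#{q ∈ S | p.1 ≤ q.1 ∧ q.1 ≤ p.1 + ρU} : ℝ) :=
        mul_le_mul_of_nonneg_left h2 hK2.le
    _ = ∑ p ∈ S, K2 * (#{q ∈ S | p.1 ≤ q.1 ∧ q.1 ≤ p.1 + ρU} : ℝ) := mul_sum _ _ _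
    _ ≤ ∑ _p ∈ S, N := sum_le_sum fun p _ => hstrip p.1
    _ = #S * N := by rw [sum_const, nsmul_eq_mul]

open Classical in
/-- **the steep windows are few** -/
theorem few_steep {K lam K2 ρ U H st : ℝ} {Q S : Finset Pt} {W : Finset ℕ} {I : ℕ → Set ℝ}
    {R : ℕ → Finset Pt} (h : JView K lam Q W I R) (hSQ : S ⊆ Q) (hR : ∀ w ∈ W, R w ⊆ S)
    (hQ : 2 * K ^ 7 * lam ^ 2 ≤ (#Q : ℝ) ^ 2) (hQ0 : 0 < (#Q : ℝ)) (hρ : 0 < ρ) (hU : 0 < U)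
    (hH : 0 < H) (hK2 : 0 < K2) (hy : ∀ p ∈ S, ∀ q ∈ S, |ht st q - ht st p| ≤ 2 * H)
    (hstrip : ∀ a : ℝ, K2 * #{q ∈ S | a ≤ q.1 ∧ q.1 ≤ a + ρ * U} ≤ (#Q : ℝ)) :
    K2 * #{w ∈ W | ¬ ∃ s ∈ I w, |s - st| ≤ 2 / ρ * (H / U)} ≤ 2 * K ^ 7 * lam ^ 2 := by
  have hK := h.two
  have hlam := h.one
  have hK0 : 0 < K := by linarith
  have hl0 : 0 < lam := by linarith
  set Wst := {w ∈ W | ¬ ∃ s ∈ I w, |s - st| ≤ 2 / ρ * (H / U)} with hWst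
  have hσ : 0 < 2 / ρ * (H / U) := by positivity
  have hsub : Wst.biUnion (fun w => Sw (R w) (I w)) ⊆
      {e ∈ S ×ˢ S | e.1.1 < e.2.1 ∧ |e.2.1 - e.1.1| ≤ ρ * U} := by
    intro e he
    obtain ⟨w, hw, hew⟩ := mem_biUnion.1 he
    obtain ⟨hwW, hno⟩ := mem_filter.1 hw
    unfold Sw at hew
    obtain ⟨h1, h2, h3⟩ := mem_filter.1 hew
    obtain ⟨hp, hq⟩ := mem_product.1 h1
    have hpS := hR w hwW hp
    have hqS := hR w hwW hq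
    have h4 : 2 / ρ * (H / U) < |sl e.1 e.2 - st| := by
      by_contra hcon
      exact hno ⟨_, h3, not_lt.1 hcon⟩
    have h5 := close_of_steep (ne_of_lt h2) hσ h4 (hy e.1 hpS e.2 hqS)
    refine mem_filter.2 ⟨mem_product.2 ⟨hpS, hqS⟩, h2, ?_⟩
    have e1 : 2 / ρ * (H / U) * |e.2.1 - e.1.1| = 2 * H * (|e.2.1 - e.1.1| / (ρ * U)) := by
      field_simp
    rw [e1] at h5
    have h6 : |e.2.1 - e.1.1| / (ρ * U) ≤ 1 := by
      have h7 : 2 * H * (|e.2.1 - e.1.1| / (ρ * U)) ≤ 2 * H * 1 := by linarith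
      exact le_of_mul_le_mul_left h7 (by positivity)
    rwa [div_le_one (by positivity)] at h6
  have hdisj : ∀ w ∈ Wst, ∀ w' ∈ Wst, w ≠ w' →
      Disjoint (Sw (R w) (I w)) (Sw (R w') (I w')) := by
    intro w hw w' hw' hne
    rw [Finset.disjoint_left]
    intro e he he'
    unfold Sw at he he'
    have h1 := (mem_filter.1 he).2.2
    have h2 := (mem_filter.1 he').2.2
    exact Set.disjoint_left.1 (h.disj w (mem_filter.1 hw).1 w' (mem_filter.1 hw').1 hne) h1 h2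
  have hcard : ∑ w ∈ Wst, #(Sw (R w) (I w)) ≤
      #{e ∈ S ×ˢ S | e.1.1 < e.2.1 ∧ |e.2.1 - e.1.1| ≤ ρ * U} := by
    rw [← card_biUnion hdisj]
    exact card_le_card hsub
  have hcl := close_pairs hK2 hstrip
  have hS : (#S : ℝ) ≤ #Q := by exact_mod_cast card_le_card hSQ
  have hlow : (#Wst : ℝ) * (#Q : ℝ) ^ 2 ≤
      2 * K ^ 7 * lam ^ 2 * ∑ w ∈ Wst, (#(Sw (R w) (I w)) : ℝ) := by
    rw [mul_sum, ← nsmul_eq_mul, ← sum_const]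
    exact sum_le_sum fun w hw => many_pairs h hQ hQ0 (mem_filter.1 hw).1
  have hcard' : (∑ w ∈ Wst, (#(Sw (R w) (I w)) : ℝ)) ≤
      #{e ∈ S ×ˢ S | e.1.1 < e.2.1 ∧ |e.2.1 - e.1.1| ≤ ρ * U} := by exact_mod_cast hcard
  have h8 : K2 * ∑ w ∈ Wst, (#(Sw (R w) (I w)) : ℝ) ≤ (#Q : ℝ) ^ 2 := by
    calc K2 * ∑ w ∈ Wst, (#(Sw (R w) (I w)) : ℝ) ≤
        K2 * #{e ∈ S ×ˢ S | e.1.1 < e.2.1 ∧ |e.2.1 - e.1.1| ≤ ρ * U} :=
          mul_le_mul_of_nonneg_left hcard' hK2.le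
      _ ≤ #S * #Q := hcl
      _ ≤ #Q * #Q := mul_le_mul_of_nonneg_right hS hQ0.le
      _ = (#Q : ℝ) ^ 2 := by ring
  have h9 : (K2 * #Wst) * (#Q : ℝ) ^ 2 ≤ (2 * K ^ 7 * lam ^ 2) * (#Q : ℝ) ^ 2 := by
    calc (K2 * #Wst) * (#Q : ℝ) ^ 2 = K2 * (#Wst * (#Q : ℝ) ^ 2) := by ring
      _ ≤ K2 * (2 * K ^ 7 * lam ^ 2 * ∑ w ∈ Wst, (#(Sw (R w) (I w)) : ℝ)) :=
          mul_le_mul_of_nonneg_left hlow hK2.le
      _ = 2 * K ^ 7 * lam ^ 2 * (K2 * ∑ w ∈ Wst, (#(Sw (R w) (I w)) : ℝ)) := by ring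
      _ ≤ _ := mul_le_mul_of_nonneg_left h8 (by positivity)
  exact le_of_mul_le_mul_right h9 (by positivity)

open Classical in
/-- **the long windows near `st` are few** -/
theorem few_long {K lam σ l st : ℝ} {Q : Finset Pt} {W : Finset ℕ} {I : ℕ → Set ℝ}
    {R : ℕ → Finset Pt} (h : JView K lam Q W I R) (hσ : 0 < σ) (hl : 0 < l) :
    (#{w ∈ W | (∃ s ∈ I w, |s - st| ≤ σ) ∧ ¬ ∀ s ∈ I w, ∀ t ∈ I w, t < s + l} : ℝ) ≤
      2 * σ / l + 2 := by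
  refine card_long_intervals _ I ?_ ?_ hl (a := st - σ) (L := 2 * σ) ?_ ?_ (by positivity)
  · intro w hw
    exact h.conn w (mem_filter.1 hw).1
  · intro w hw w' hw' hne
    exact h.disj w (mem_filter.1 hw).1 w' (mem_filter.1 hw').1 hne
  · intro w hw
    obtain ⟨_, _, h2⟩ := mem_filter.1 hw
    push Not at h2
    obtain ⟨s, hs, t, ht, hst⟩ := h2
    exact ⟨s, hs, t, ht, hst⟩
  · intro w hw
    obtain ⟨_, ⟨s, hs, h1⟩, _⟩ := mem_filter.1 hw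
    have h3 := abs_le.1 h1
    exact ⟨s, hs, by linarith [h3.1], by linarith [h3.2]⟩

open Classical in
/-- **[NORMDROP]** -/
theorem normdrop {K lam K2 ρ η U H st : ℝ} {Q S : Finset Pt} {W : Finset ℕ} {I : ℕ → Set ℝ}
    {R : ℕ → Finset Pt} (h : JView K lam Q W I R) (hSQ : S ⊆ Q) (hR : ∀ w ∈ W, R w ⊆ S)
    (hQ : 2 * K ^ 7 * lam ^ 2 ≤ (#Q : ℝ) ^ 2) (hQ0 : 0 < (#Q : ℝ)) (hρ : 0 < ρ) (hη : 0 < η)
    (hU : 0 < U) (hH : 0 < H) (hK2 : 8 * K ^ 8 ≤ K2)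
    (hlong : 4 * K * (4 / (ρ * η) + 2) ≤ lam ^ 2)
    (hy : ∀ p ∈ S, ∀ q ∈ S, |ht st q - ht st p| ≤ 2 * H)
    (hstrip : ∀ a : ℝ, K2 * #{q ∈ S | a ≤ q.1 ∧ q.1 ≤ a + ρ * U} ≤ (#Q : ℝ)) :
    JView (2 * K) lam Q {w ∈ W | Short I st (2 / ρ * (H / U)) (η * (H / U)) w} I R := by
  have hK := h.two
  have hlam := h.one
  have hK0 : 0 < K := by linarith
  have hl0 : 0 < lam := by linarith
  have hK2' : 0 < K2 := lt_of_lt_of_le (by positivity) hK2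
  set σ := 2 / ρ * (H / U) with hσdef
  set l := η * (H / U) with hldef
  have hσ : 0 < σ := by positivity
  have hl : 0 < l := by positivity
  set W1 := {w ∈ W | Short I st σ l w} with hW1
  have hsub : W1 ⊆ W := filter_subset _ _
  have hcover : W ⊆ W1 ∪ ({w ∈ W | ¬ ∃ s ∈ I w, |s - st| ≤ σ} ∪
      {w ∈ W | (∃ s ∈ I w, |s - st| ≤ σ) ∧ ¬ ∀ s ∈ I w, ∀ t ∈ I w, t < s + l}) := by
    intro w hw
    by_cases h1 : ∃ s ∈ I w, |s - st| ≤ σ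
    · by_cases h2 : ∀ s ∈ I w, ∀ t ∈ I w, t < s + l
      · exact mem_union_left _ (mem_filter.2 ⟨hw, h1, h2⟩)
      · exact mem_union_right _ (mem_union_right _ (mem_filter.2 ⟨hw, h1, h2⟩))
    · exact mem_union_right _ (mem_union_left _ (mem_filter.2 ⟨hw, h1⟩))
  have hcard : (#W : ℝ) ≤ #W1 + (#{w ∈ W | ¬ ∃ s ∈ I w, |s - st| ≤ σ} +
      #{w ∈ W | (∃ s ∈ I w, |s - st| ≤ σ) ∧ ¬ ∀ s ∈ I w, ∀ t ∈ I w, t < s + l}) := by
    have h1 := (card_le_card hcover).trans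
      ((card_union_le _ _).trans (Nat.add_le_add_left (card_union_le _ _) _))
    exact_mod_cast h1
  have hA := few_steep h hSQ hR hQ hQ0 hρ hU hH hK2' hy hstrip
  rw [← hσdef] at hA
  have hB := few_long (st := st) h hσ hl
  have hA' : 4 * K * (#{w ∈ W | ¬ ∃ s ∈ I w, |s - st| ≤ σ} : ℝ) ≤ lam ^ 2 := by
    have h1 : 8 * K ^ 8 * (#{w ∈ W | ¬ ∃ s ∈ I w, |s - st| ≤ σ} : ℝ) ≤ 2 * K ^ 7 * lam ^ 2 :=
      (mul_le_mul_of_nonneg_right hK2 (Nat.cast_nonneg _)).trans hA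
    have h2 : (2 * K ^ 7) * (4 * K * (#{w ∈ W | ¬ ∃ s ∈ I w, |s - st| ≤ σ} : ℝ)) ≤
        (2 * K ^ 7) * lam ^ 2 := by
      calc _ = 8 * K ^ 8 * (#{w ∈ W | ¬ ∃ s ∈ I w, |s - st| ≤ σ} : ℝ) := by ring
        _ ≤ _ := h1
    exact le_of_mul_le_mul_left h2 (by positivity)
  have hB' : 4 * K * (#{w ∈ W | (∃ s ∈ I w, |s - st| ≤ σ) ∧
      ¬ ∀ s ∈ I w, ∀ t ∈ I w, t < s + l} : ℝ) ≤ lam ^ 2 := by
    have e : 2 * σ / l + 2 = 4 / (ρ * η) + 2 := by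
      rw [hσdef, hldef]; field_simp; ring
    rw [e] at hB
    exact (mul_le_mul_of_nonneg_left hB (by positivity)).trans hlong
  have hW1low : lam ^ 2 ≤ 2 * K * #W1 := by
    have h1 := h.cardW'
    have h2 : K * (#W : ℝ) ≤ K * (#W1 + (#{w ∈ W | ¬ ∃ s ∈ I w, |s - st| ≤ σ} +
      #{w ∈ W | (∃ s ∈ I w, |s - st| ≤ σ) ∧ ¬ ∀ s ∈ I w, ∀ t ∈ I w, t < s + l})) :=
      mul_le_mul_of_nonneg_left hcard hK0.le
    nlinarith
  have hmono : ∀ x : ℝ, 0 ≤ x → K * x ≤ 2 * K * x := by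
    intro x hx
    nlinarith
  refine
    { two := by linarith
      one := hlam
      xinj := h.xinj
      conn := fun w hw => h.conn w (hsub hw)
      disj := fun w hw w' hw' => h.disj w (hsub hw) w' (hsub hw')
      cardW := ?_
      cardW' := hW1low
      subR := fun w hw => h.subR w (hsub hw)
      cardR := fun w hw => (h.cardR w (hsub hw)).trans (hmono _ (by positivity))
      cardR' := ?_
      touch := ?_
      join := ?_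
      star := ?_ }
  · have h1 : (#W1 : ℝ) ≤ #W := by exact_mod_cast card_le_card hsub
    exact (h1.trans h.cardW).trans (hmono _ (by positivity))
  · intro w hw
    have h1 := h.cardR' w (hsub hw)
    have h2 : 0 ≤ lam * (#(R w) : ℝ) := by positivity
    nlinarith
  · intro x hx
    have h1 := h.touch x hx
    have h2 : (#{w ∈ W1 | x ∈ R w} : ℝ) ≤ #{w ∈ W | x ∈ R w} := by
      exact_mod_cast card_le_card (filter_subset_filter _ hsub)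
    exact (h2.trans h1).trans (hmono _ hl0.le)
  · intro w hw M hM
    refine (h.join w (hsub hw) M hM).trans ?_
    have h1 : 0 ≤ (#Q : ℝ) ^ 4 * (#(Sw M (I w)) + 1 : ℝ) := by positivity
    nlinarith
  · intro S' Hs hHs Z hZ
    have h1 := h.star S' Hs hHs Z hZ
    have h2 : ∑ w ∈ W1, (#(R w ∩ Z) : ℝ) ^ 3 ≤ ∑ w ∈ W, (#(R w ∩ Z) : ℝ) ^ 3 :=
      sum_le_sum_of_subset_of_nonneg hsub fun _ _ _ => by positivity
    have h3 : 0 ≤ (#S' + 1 : ℝ) ^ 3 * (#Q * (#Z : ℝ) ^ 2 + lam * (#Q : ℝ) ^ 2) := by positivity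
    calc lam * ∑ w ∈ W1, (#(R w ∩ Z) : ℝ) ^ 3 ≤ lam * ∑ w ∈ W, (#(R w ∩ Z) : ℝ) ^ 3 :=
          mul_le_mul_of_nonneg_left h2 hl0.le
      _ ≤ _ := h1
      _ ≤ 2 * K * (#S' + 1 : ℝ) ^ 3 * (#Q * (#Z : ℝ) ^ 2 + lam * (#Q : ℝ) ^ 2) := by nlinarith

end Vale.Agent.P065.H549
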