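import Vale.Agent.P065.H549.StDrop

/-!
# P065, upper bound, [DIM], run 1 (helper549)

The set `S` is normalised (`U = H = 1`, `st = 0`): abscissas within `1`, heights within `2`, every
dense subset has a triangle of double area `≥ 8 ρ`; the windows are shorter than `η`, the slopes are
at most `2 / ρ + η`.

* `few_low`: few flags `(a, q)` have `q` close to the line `l0`;
* `class_width`: two flags of one class in one window have close class values;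
* `box_side`: a dense set of high points is not small in the coordinates `cf o₁`, `c₃ cf o₂`;
* `ratio`: the resolution is much smaller than the side of a dense box.
-/

set_option autoImplicit false

namespace Vale.Agent.P065.H549

open Finset Vale.Agent.P065.UB Vale.Agent.P065.H183
open Vale.Agent.P065.UB.H616 Vale.Agent.P065.UB.H415

/-- the normalised situation -/
structure Nrm (N M ρ : ℝ) (S : Finset Pt) : Prop where
  ρ0 : 0 < ρ
  ρ1 : ρ ≤ 1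
  x : ∀ p ∈ S, ∀ q ∈ S, |q.1 - p.1| ≤ 1
  y : ∀ p ∈ S, ∀ q ∈ S, |ht 0 q - ht 0 p| ≤ 2
  nc : NC N M (8 * ρ) S

theorem nrm_of_nc {M κ : ℝ} {N : ℕ} {S : Finset Pt}
    (hbox : ∀ p ∈ S, 0 ≤ p.1 ∧ p.1 ≤ 1 ∧ |p.2| ≤ 1) (hNC : NormDrop.NC M κ 1 N S) (hκ : 0 < κ)
    (hκ1 : κ ≤ 1) : Nrm N M (κ / 8) S := by
  refine ⟨by positivity, by linarith, ?_, ?_, ?_⟩
  · intro p hp q hq
    have h1 := hbox p hp
    have h2 := hbox q hq
    rw [abs_le]; constructor <;> linarith [h1.1, h1.2.1, h2.1, h2.2.1]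
  · intro p hp q hq
    have h1 := (hbox p hp).2.2
    have h2 := (hbox q hq).2.2
    unfold ht
    have e : q.2 - 0 * q.1 - (p.2 - 0 * p.1) = q.2 - p.2 := by ring
    rw [e]
    exact (abs_sub _ _).trans (by linarith)
  · have e : 8 * (κ / 8) = κ * 1 := by ring
    rw [e]
    exact hNC

section
variable {N M ρ η m0 : ℝ} {c : Pt} {S : Finset Pt}

open Classical in
/-- few points are close to a line -/
theorem Nrm.low (h : Nrm N M ρ S) (m0 : ℝ) (c : Pt) :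
    M * #{q ∈ S | |chV m0 c q| ≤ ρ} ≤ N := by
  have h1 : NC N M (8 * ρ * (1 * 1)) S := by
    rw [mul_one, mul_one]; exact h.nc
  have h2 := light_line h.ρ0 one_pos one_pos h.x h1 m0 (ht m0 c)
  rw [mul_one] at h2
  exact h2

open Classical in
/-- **few low flags** -/
theorem Nrm.few_low (h : Nrm N M ρ S) (hM : 0 < M) {F : Finset (Pt × Pt)} {A0 : Finset Pt}
    (h1 : ∀ e ∈ F, e.1 ∈ A0) (h2 : ∀ e ∈ F, e.2 ∈ S) (m0 : ℝ) (c : Pt) :
    M * #{e ∈ F | |chV m0 c e.2| ≤ ρ} ≤ #A0 * N := by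
  have hsub : {e ∈ F | |chV m0 c e.2| ≤ ρ} ⊆ A0 ×ˢ {q ∈ S | |chV m0 c q| ≤ ρ} := by
    intro e he
    obtain ⟨he1, he2⟩ := mem_filter.1 he
    exact mem_product.2 ⟨h1 e he1, mem_filter.2 ⟨h2 e he1, he2⟩⟩
  have hc : (#{e ∈ F | |chV m0 c e.2| ≤ ρ} : ℝ) ≤ #A0 * #{q ∈ S | |chV m0 c q| ≤ ρ} := by
    have := card_le_card hsub
    rw [card_product] at this
    exact_mod_cast this
  have hl := h.low m0 c
  calc M * (#{e ∈ F | |chV m0 c e.2| ≤ ρ} : ℝ) ≤ M * (#A0 * #{q ∈ S | |chV m0 c q| ≤ ρ}) :=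
        mul_le_mul_of_nonneg_left hc hM.le
    _ = #A0 * (M * #{q ∈ S | |chV m0 c q| ≤ ρ}) := by ring
    _ ≤ #A0 * N := mul_le_mul_of_nonneg_left hl (Nat.cast_nonneg _)

/-- **class width** -/
theorem Nrm.class_width (h : Nrm N M ρ S) (hη : 2 * η ≤ ρ) {a q q' : Pt} {J : Set ℝ}
    (haS : a ∈ S) (hqS : q ∈ S) (haq : a.1 ≠ q.1) (haq' : a.1 ≠ q'.1)
    (hv : ρ ≤ |chV m0 c q|) (hv' : chV m0 c q' ≠ 0)
    (hJ : ∀ s ∈ J, ∀ t ∈ J, |s - t| ≤ η) (hs : sl (prj m0 c a) q ∈ J)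
    (hs' : sl (prj m0 c a) q' ∈ J) : |cf m0 c a q - cf m0 c a q'| ≤ 2 * η / ρ ^ 2 := by
  have h1 := width_le (U := 1) (H := 1) (η := η) (m0 := m0) (c := c) (a := a) (q := q)
    (s' := sl (prj m0 c a) q') h.ρ0 one_pos one_pos hη haq (by rw [mul_one]; exact hv)
    (h.x a haS q hqS) (by rw [div_one, mul_one]; exact hJ _ hs _ hs')
  rw [← cf_eq haq' hv'] at h1
  refine h1.trans (le_of_eq ?_)
  ring

open Classical in
/-- **side of a dense box** -/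
theorem Nrm.box_side (h : Nrm N M ρ S) (hη1 : η ≤ 1) (hcS : c ∈ S)
    (hm : |m0| ≤ 2 / ρ + η) {T : Finset Pt} (hTS : T ⊆ S) (hT : N ≤ M * #T)
    (hlow : ∀ q ∈ T, ρ ≤ |chV m0 c q|) {a : Pt} {e : ℝ}
    (hext : ∀ p ∈ T, ∀ q ∈ T, |cf m0 c a q - cf m0 c a p| ≤ e) : 2 * ρ ^ 5 ≤ 125 * e := by
  have h1 : NC N M (8 * ρ * (1 * 1)) S := by
    rw [mul_one, mul_one]; exact h.nc
  have hup : ∀ q ∈ T, |chV m0 c q| ≤ 5 * 1 / ρ := by
    intro q hq
    refine chV_le (st := 0) h.ρ0 h.ρ1 hη1 one_pos one_pos (h.x c hcS q (hTS hq)) ?_ ?_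
    · rw [mul_one]; exact h.y c hcS q (hTS hq)
    · rw [sub_zero, div_one, mul_one]; exact hm
  have h2 := ext_ge (m0 := m0) (c := c) (u := chU c a) h.ρ0 one_pos one_pos h1 hTS hT rfl
    (by intro q hq; rw [mul_one]; exact hlow q hq) hup hext
  rwa [div_one, mul_one] at h2

/-- **ratio**: resolution against side -/
theorem ratio {ρ η c3 r δ : ℝ} (hρ : 0 < ρ) (hη : 0 ≤ η) (hδ : δ ≤ 3 * max 1 |c3| * (2 * η / ρ ^ 2))
    (h1 : 2 * ρ ^ 5 ≤ 125 * (2 * r)) (h2 : 2 * ρ ^ 5 * |c3| ≤ 125 * (2 * r)) :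
    δ * ρ ^ 7 ≤ 750 * η * r := by
  have h3 : 2 * ρ ^ 5 * max 1 |c3| ≤ 125 * (2 * r) := by
    rcases le_total 1 |c3| with h | h
    · rw [max_eq_right h]; exact h2
    · rw [max_eq_left h, mul_one]; exact h1
  have h4 : δ * ρ ^ 7 ≤ 3 * max 1 |c3| * (2 * η / ρ ^ 2) * ρ ^ 7 :=
    mul_le_mul_of_nonneg_right hδ (by positivity)
  have e : 3 * max 1 |c3| * (2 * η / ρ ^ 2) * ρ ^ 7 = 3 * η * (2 * ρ ^ 5 * max 1 |c3|) := by
    field_simp
  rw [e] at h4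
  have h5 : 3 * η * (2 * ρ ^ 5 * max 1 |c3|) ≤ 3 * η * (125 * (2 * r)) :=
    mul_le_mul_of_nonneg_left h3 (by positivity)
  linarith

end

end Vale.Agent.P065.H549
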