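import Vale.Agent.P065.H549.Run1
import Vale.Agent.P065.UB.DimAsm.Defs

/-!
# P065, upper bound, [DIM1] over `Mach` (helper549)

Bounded geometry: `S` in `[0, 1] × [-1, 1]`, every subset with `#Q / M` points has a triangle of
double area `≥ κ`, slopes `≤ 20 / κ`, windows of length `≤ lam ^ (-3 / 2)`, used points of height
`≥ κ / 10` over `l0`. Then the normalised widths of the used windows are at most
`β = 300 κ ^ (-2) max(1, |c₃|) lam ^ (-3 / 2)` and a box with `#Q / M` used points has half side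
`r` with `κ ^ 14 lam ^ 3 β ^ 2 ≤ C r ^ 2`.
-/

set_option autoImplicit false

namespace Vale.Agent.P065.H549

open Finset Vale.Agent.P065.UB Vale.Agent.P065.H183
open Vale.Agent.P065.UB.H616 Vale.Agent.P065.UB.H415 Vale.Agent.P065.UB.MC

/-- both slopes far from `m0`: the chart values are close -/
theorem zt_sub_le {m0 s s' μ η : ℝ} (hμ : 0 < μ) (hs : μ ≤ |s - m0|) (hs' : μ ≤ |s' - m0|)
    (hss : |s - s'| ≤ η) : |zt m0 s - zt m0 s'| ≤ η / μ ^ 2 := by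
  have h1 : s - m0 ≠ 0 := abs_pos.1 (lt_of_lt_of_le hμ hs)
  have h4 : s' - m0 ≠ 0 := abs_pos.1 (lt_of_lt_of_le hμ hs')
  have e : zt m0 s - zt m0 s' = (s' - s) / ((s - m0) * (s' - m0)) := by
    unfold zt; field_simp; ring
  have hη0 : 0 ≤ η := (abs_nonneg _).trans hss
  rw [e, abs_div, abs_mul, abs_sub_comm s' s]
  have h5 : μ ^ 2 ≤ |s - m0| * |s' - m0| := by
    rw [pow_two]; exact mul_le_mul hs hs' hμ.le (abs_nonneg _)
  exact div_le_div₀ hη0 hss (by positivity) h5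

/-- **class width**, both points high -/
theorem cf_sub_le {m0 v η : ℝ} {c a q q' : Pt} {J : Set ℝ} (hv : 0 < v)
    (haq : a.1 ≠ q.1) (haq' : a.1 ≠ q'.1) (hx : |q.1 - a.1| ≤ 1) (hx' : |q'.1 - a.1| ≤ 1)
    (hvq : v ≤ |chV m0 c q|) (hvq' : v ≤ |chV m0 c q'|)
    (hJ : ∀ s ∈ J, ∀ t ∈ J, |s - t| ≤ η) (hs : sl (prj m0 c a) q ∈ J)
    (hs' : sl (prj m0 c a) q' ∈ J) : |cf m0 c a q - cf m0 c a q'| ≤ η / v ^ 2 := by
  have h1 := slope_ge (ρ := v) (U := 1) (H := 1) one_pos haq (by rwa [mul_one])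
    (by rwa [mul_one]) hx
  have h2 := slope_ge (ρ := v) (U := 1) (H := 1) one_pos haq' (by rwa [mul_one])
    (by rwa [mul_one]) hx'
  rw [mul_one, div_one] at h1 h2
  rw [cf_eq haq (abs_pos.1 (lt_of_lt_of_le hv hvq)), cf_eq haq' (abs_pos.1 (lt_of_lt_of_le hv hvq'))]
  exact zt_sub_le hv h1 h2 (hJ _ hs _ hs')

open Classical in
/-- **[DIM1]**, explicit constants -/
theorem dim1_mach {K lam δ κ M : ℝ} {Q : Finset Pt} {W : Finset ℕ} {I : ℕ → Set ℝ}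
    {R : ℕ → Finset Pt} {S : Finset Pt} {c : Pt} {w0 : ℕ} {m0 : ℝ} {o1 o2 o3 : Pt}
    {F : Finset (Pt × Pt)} {Wd : Pt × Pt → ℕ} (hlam : 1 ≤ lam)
    (hM : Mach K lam Q W I R c w0 m0 o1 o2 o3 F Wd δ)
    (h12 : ∀ e ∈ F, e.1.1 ≠ o2.1) (h13 : F.Nonempty → cc o1 o2 o3 ≠ 0)
    (hRS : ∀ w ∈ W, R w ⊆ S) (hbox : ∀ p ∈ S, 0 ≤ p.1 ∧ p.1 ≤ 1 ∧ |p.2| ≤ 1)
    (hNC : NormDrop.NC M κ 1 #Q S) (hκ : 0 < κ) (hκ1 : κ ≤ 1)
    (hsl : ∀ w ∈ W, ∀ x ∈ I w, |x| ≤ 20 / κ)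
    (hwd : ∀ w ∈ W, ∀ x ∈ I w, ∀ y ∈ I w, lam ^ 3 * (x - y) ^ 2 ≤ 1)
    (hlow : ∀ e ∈ F, κ / 10 ≤ |chV m0 c e.2|) :
    ∃ β : ℝ, 0 < β ∧
      (∀ e ∈ F, ∀ e' ∈ F, Wd (o1, e.2) = Wd (o1, e'.2) →
        |fX m0 c o1 e.2 - fX m0 c o1 e'.2| ≤ β) ∧
      (∀ e ∈ F, ∀ e' ∈ F, Wd (o2, e.2) = Wd (o2, e'.2) →
        |fY m0 c o1 o2 o3 e.2 - fY m0 c o1 o2 o3 e'.2| ≤ β) ∧
      (∀ e ∈ F, ∀ e' ∈ F, e.1 = e'.1 → Wd e = Wd e' →
        |fZ m0 c o1 o2 e.1 e.2 - fZ m0 c o1 o2 e.1 e'.2| ≤ β) ∧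
      ∀ x y r : ℝ, 0 ≤ r → (#Q : ℝ) ≤ M * #{p ∈ F.image Prod.snd |
          |fX m0 c o1 p - x| ≤ 2 * r ∧ |fY m0 c o1 o2 o3 p - y| ≤ 2 * r} →
        κ ^ 14 * lam ^ 3 * β ^ 2 ≤ 90000 * (1703680 * r) ^ 2 := by
  have hlam0 : 0 < lam := by linarith
  have hl3 : 0 < lam ^ 3 := by positivity
  set η : ℝ := 1 / Real.sqrt (lam ^ 3) with hη
  have hsq : 0 < Real.sqrt (lam ^ 3) := Real.sqrt_pos.2 hl3
  have hη0 : 0 < η := by rw [hη]; positivity
  have hη2 : lam ^ 3 * η ^ 2 = 1 := by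
    rw [hη, div_pow, one_pow, Real.sq_sqrt hl3.le]
    field_simp
  have hJ : ∀ w ∈ W, ∀ s ∈ I w, ∀ t ∈ I w, |s - t| ≤ η := by
    intro w hw s hs t ht
    have h := hwd w hw s hs t ht
    have h2 : (s - t) ^ 2 ≤ η ^ 2 := by
      have : lam ^ 3 * (s - t) ^ 2 ≤ lam ^ 3 * η ^ 2 := by rw [hη2]; exact h
      exact le_of_mul_le_mul_left this hl3
    exact abs_le_of_sq_le_sq h2 hη0.le
  set c3 := cc o1 o2 o3 with hc3
  set mx : ℝ := max 1 |c3| with hmx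
  have hmx1 : 1 ≤ mx := le_max_left _ _
  have hmx3 : |c3| ≤ mx := le_max_right _ _
  -- points of a flag
  have hpt : ∀ {a q : Pt}, Flag Q W I R c w0 m0 Wd a q → a ∈ S ∧ q ∈ S := by
    intro a q hf
    exact ⟨hRS _ hM.w0W hf.jc.2.1, hRS _ hf.wW hf.jq.2.1⟩
  have hxS : ∀ p ∈ S, ∀ q ∈ S, |q.1 - p.1| ≤ 1 := by
    intro p hp q hq
    have h1 := hbox p hp
    have h2 := hbox q hq
    rw [abs_le]; constructor <;> linarith [h1.1, h1.2.1, h2.1, h2.2.1]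
  -- widths of a class
  have hcls : ∀ {a q q' : Pt}, Flag Q W I R c w0 m0 Wd a q → Flag Q W I R c w0 m0 Wd a q' →
      (∃ e ∈ F, e.2 = q) → (∃ e ∈ F, e.2 = q') → Wd (a, q) = Wd (a, q') →
      |cf m0 c a q - cf m0 c a q'| ≤ 100 * η / κ ^ 2 := by
    intro a q q' hf hf' hq hq' hw
    obtain ⟨e, he, rfl⟩ := hq
    obtain ⟨e', he', rfl⟩ := hq'
    have h1 := cf_sub_le (m0 := m0) (c := c) (a := a) (q := e.2) (q' := e'.2)
      (J := I (Wd (a, e.2))) (v := κ / 10) (η := η) (by positivity) hf.jq.2.2.1 hf'.jq.2.2.1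
      (hxS _ (hpt hf).1 _ (hpt hf).2) (hxS _ (hpt hf').1 _ (hpt hf').2) (hlow e he) (hlow e' he')
      (hJ _ hf.wW) hf.ex (by rw [hw]; exact hf'.ex)
    refine h1.trans (le_of_eq ?_)
    field_simp
    norm_num
  set β : ℝ := 3 * mx * (100 * η / κ ^ 2) with hβ
  have hw0 : 0 < 100 * η / κ ^ 2 := by positivity
  have hβ0 : 0 < β := by rw [hβ]; positivity
  refine ⟨β, hβ0, ?_, ?_, ?_, ?_⟩
  · intro e he e' he' hw
    have h := hcls (hM.fl1 e he) (hM.fl1 e' he') ⟨e, he, rfl⟩ ⟨e', he', rfl⟩ hw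
    unfold fX
    refine h.trans ?_
    rw [hβ]
    nlinarith
  · intro e he e' he' hw
    have h := hcls (hM.fl2 e he) (hM.fl2 e' he') ⟨e, he, rfl⟩ ⟨e', he', rfl⟩ hw
    unfold fY
    rw [← hc3, ← mul_sub, abs_mul, hβ]
    calc |c3| * |cf m0 c o2 e.2 - cf m0 c o2 e'.2| ≤ mx * (100 * η / κ ^ 2) :=
          mul_le_mul hmx3 h (abs_nonneg _) (by positivity)
      _ ≤ 3 * mx * (100 * η / κ ^ 2) := by nlinarith
  · intro e he e' he' hee hw
    have hf' := hM.fl e' he'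
    rw [← hee] at hf'
    have hw' : Wd (e.1, e.2) = Wd (e.1, e'.2) := by
      have h1 : (e.1, e.2) = e := rfl
      have h2 : (e.1, e'.2) = e' := by rw [hee]
      rw [h1, h2]; exact hw
    have h := hcls (hM.fl e he) hf' ⟨e, he, rfl⟩ ⟨e', he', rfl⟩ hw'
    have hne := h12 e he
    have hd : o2.1 - e.1.1 ≠ 0 := sub_ne_zero.2 (Ne.symm hne)
    have hfac : (o2.1 - o1.1) / (o2.1 - e.1.1) = 1 + cc o1 o2 e.1 := by
      unfold cc; field_simp; ring
    have hmu := (hM.nice e he).2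
    have hca : |cc o1 o2 e.1| ≤ 2 * |c3| := by
      have h3 := h13 ⟨e, he⟩
      unfold mu at hmu
      rw [← hc3, abs_div, div_le_iff₀ (abs_pos.2 h3)] at hmu
      exact hmu
    unfold fZ
    rw [← mul_sub, abs_mul, hfac, hβ]
    exact mul_le_mul (scale_le hca) h (abs_nonneg _) (by positivity)
  · intro x y r hr hT
    set T : Finset Pt := {p ∈ F.image Prod.snd |
          |fX m0 c o1 p - x| ≤ 2 * r ∧ |fY m0 c o1 o2 o3 p - y| ≤ 2 * r} with hTdef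
    have hTF : ∀ p ∈ T, ∃ e ∈ F, e.2 = p := by
      intro p hp
      rw [hTdef, mem_filter, mem_image] at hp
      exact hp.1
    have hTS : T ⊆ S := by
      intro p hp
      obtain ⟨e, he, rfl⟩ := hTF p hp
      exact (hpt (hM.fl e he)).2
    obtain ⟨p, hp, q, hq, s, hs, hL⟩ := hNC T hTS hT
    have hdt : NormDrop.dt p q s = dt p q s := rfl
    rw [hdt, mul_one] at hL
    obtain ⟨e0, he0, -⟩ := hTF p hp
    have hcS : c ∈ S := hRS _ hM.w0W (hM.fl e0 he0).jc.1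
    have hm0 : |m0| ≤ 20 / κ := hsl _ hM.w0W _ hM.m0I
    have hlo : ∀ z ∈ T, κ / 10 ≤ |chV m0 c z| := by
      intro z hz
      obtain ⟨e, he, rfl⟩ := hTF z hz
      exact hlow e he
    have hup : ∀ z ∈ T, |chV m0 c z| ≤ 22 / κ := by
      intro z hz
      have h1 := hxS c hcS z (hTS hz)
      have h2 := (hbox c hcS).2.2
      have h3 := (hbox z (hTS hz)).2.2
      have e : chV m0 c z = (z.2 - c.2) - m0 * (z.1 - c.1) := by
        unfold chV ht; ring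
      have h4 : |m0 * (z.1 - c.1)| ≤ 20 / κ := by
        rw [abs_mul]
        calc |m0| * |z.1 - c.1| ≤ 20 / κ * 1 :=
              mul_le_mul hm0 h1 (abs_nonneg _) (by positivity)
          _ = 20 / κ := mul_one _
      have h5 : 2 ≤ 2 / κ := by rw [le_div_iff₀ hκ]; linarith
      have h6 : |z.2 - c.2| ≤ 2 := (abs_sub _ _).trans (by linarith)
      rw [e]
      calc |(z.2 - c.2) - m0 * (z.1 - c.1)| ≤ |z.2 - c.2| + |m0 * (z.1 - c.1)| := abs_sub _ _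
        _ ≤ 2 / κ + 20 / κ := add_le_add (h6.trans h5) h4
        _ = 22 / κ := by ring
    -- extent for a class
    have hcl : ∀ (a : Pt) (d : ℝ), (∀ z ∈ T, |cf m0 c a z - cf m0 c a p| ≤ d) →
        κ ^ 5 ≤ 425920 * d := by
      intro a d hd
      have h := ext_of_big (m0 := m0) (u := chU c a) (c := c) (V := 22 / κ) (v0 := κ / 10)
        (e := d) (by positivity) (hlo p hp) (hlo q hq) (hlo s hs) (hup p hp) (hup q hq)
        (hup s hs) (hd q hq) (hd s hs) hL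
      have e1 : 4 * (22 / κ) ^ 3 * d = 42592 * d / κ ^ 3 := by
        rw [div_pow]; ring
      rw [e1, le_div_iff₀ (by positivity)] at h
      have e2 : κ * (κ / 10) * κ ^ 3 = κ ^ 5 / 10 := by ring
      rw [e2] at h
      linarith
    have hmem : ∀ z ∈ T, |fX m0 c o1 z - x| ≤ 2 * r ∧ |fY m0 c o1 o2 o3 z - y| ≤ 2 * r := by
      intro z hz
      rw [hTdef, mem_filter] at hz
      exact hz.2
    have hA : κ ^ 5 ≤ 1703680 * r := by
      have h := hcl o1 (4 * r) (by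
        intro z hz
        have h1 := abs_le.1 (hmem z hz).1
        have h2 := abs_le.1 (hmem p hp).1
        unfold fX at h1 h2
        rw [abs_le]; constructor <;> linarith)
      linarith
    have hB : κ ^ 5 * |c3| ≤ 1703680 * r := by
      by_cases h0 : c3 = 0
      · rw [h0, abs_zero, mul_zero]; positivity
      · have h0' : 0 < |c3| := abs_pos.2 h0
        have h := hcl o2 (4 * r / |c3|) (by
          intro z hz
          have h1 := abs_le.1 (hmem z hz).2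
          have h2 := abs_le.1 (hmem p hp).2
          unfold fY at h1 h2
          rw [← hc3] at h1 h2
          rw [le_div_iff₀ h0', mul_comm, ← abs_mul, mul_sub, abs_le]
          constructor <;> linarith)
        rw [mul_div_assoc', le_div_iff₀ h0'] at h
        linarith
    have hC : κ ^ 5 * mx ≤ 1703680 * r := by
      rcases le_total 1 |c3| with h | h
      · rw [hmx, max_eq_right h]; exact hB
      · rw [hmx, max_eq_left h, mul_one]; exact hA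
    have hD : (κ ^ 5 * mx) ^ 2 ≤ (1703680 * r) ^ 2 :=
      pow_le_pow_left₀ (by positivity) hC 2
    have e3 : κ ^ 14 * lam ^ 3 * β ^ 2 = 90000 * (κ ^ 5 * mx) ^ 2 * (lam ^ 3 * η ^ 2) := by
      rw [hβ]; field_simp; ring
    rw [e3, hη2, mul_one]
    linarith

/-- **[DIM1]**, literal -/
theorem stDim1 : DimAsm.StDim1 := by
  classical
  refine ⟨14, 90000 * 1703680 ^ 2, ?_⟩
  intro K K' lam κ M Q W I R S hV hRS hbox hNC hκ hκ1 hsl hwd c w0 m0 o1 o2 o3 F Wd δ hM hlow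
  obtain ⟨β, h1, h2, h3, h4, h5⟩ := dim1_mach (lam := lam) hV.one hM
    (fun e he => hM.toMach0.xa2 hV he) (by
      rintro ⟨e, he⟩
      have a1 := hM.toMach0.x13 hV he
      have a2 := hM.toMach0.x23 hV he
      unfold cc
      exact div_ne_zero (sub_ne_zero.2 (Ne.symm a1)) (sub_ne_zero.2 a2))
    hRS hbox hNC hκ hκ1 hsl hwd hlow
  refine ⟨β, h1, h2, h3, h4, ?_⟩
  intro x y r hr hT
  refine (h5 x y r hr.le hT).trans (le_of_eq ?_)
  push_cast
  ring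

end Vale.Agent.P065.H549
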