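import Vale.Agent.P065.H549.NormDrop
import Vale.Agent.P065.UB.NormDrop.Defs

/-!
# P065, upper bound, [DIM]: `StDrop` and `StLight` (helper549)
-/

set_option autoImplicit false

namespace Vale.Agent.P065.H549

open Finset Vale.Agent.P065.UB Vale.Agent.P065.H183

open Classical in
/-- a `JView` with a larger constant -/
theorem jview_mono {K K' lam : ℝ} {Q : Finset Pt} {W : Finset ℕ} {I : ℕ → Set ℝ}
    {R : ℕ → Finset Pt} (h : JView K lam Q W I R) (hK : K ≤ K') : JView K' lam Q W I R := by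
  have h2 := h.two
  have hl := h.one
  have hl0 : 0 ≤ lam := by linarith
  have hm : ∀ x : ℝ, 0 ≤ x → K * x ≤ K' * x := fun x hx => mul_le_mul_of_nonneg_right hK hx
  refine
    { two := by linarith
      one := h.one
      xinj := h.xinj
      conn := h.conn
      disj := h.disj
      cardW := h.cardW.trans (hm _ (by positivity))
      cardW' := h.cardW'.trans (hm _ (by positivity))
      subR := h.subR
      cardR := fun w hw => (h.cardR w hw).trans (hm _ (by positivity))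
      cardR' := ?_
      touch := fun x hx => (h.touch x hx).trans (hm _ hl0)
      join := ?_
      star := ?_ }
  · intro w hw
    refine (h.cardR' w hw).trans ?_
    have h1 := hm (lam * #(R w)) (by positivity)
    linarith
  · intro w hw M hM
    refine (h.join w hw M hM).trans ?_
    have h1 := hm ((#Q : ℝ) ^ 4 * (#(Sw M (I w)) + 1)) (by positivity)
    linarith
  · intro S H hH Z hZ
    refine (h.star S H hH Z hZ).trans ?_
    have h1 := hm ((#S + 1 : ℝ) ^ 3 * (#Q * (#Z : ℝ) ^ 2 + lam * (#Q : ℝ) ^ 2)) (by positivity)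
    linarith

open Classical in
/-- **[DROP]** -/
theorem stDrop : NormDrop.StDrop := by
  refine ⟨20, ?_⟩
  intro K lam κ M Q W I R S h hQlam hSQ hR hbox hNC hκ hκ1 hC hM
  have hK := h.two
  have hlam := h.one
  have hK0 : 0 < K := by linarith
  have hl0 : 0 < lam := by linarith
  have hK1 : (1 : ℝ) ≤ K := by linarith
  have hQ0 : 0 < (#Q : ℝ) := lt_of_lt_of_le (by positivity) hQlam
  -- the square root of `lam`
  set s := Real.sqrt lam with hs
  have hs2 : s ^ 2 = lam := Real.sq_sqrt hl0.le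
  have hs0 : 0 < s := Real.sqrt_pos.2 hl0
  have hκs : K ^ 10 ≤ κ * s := by
    have h1 : (K ^ 10) ^ 2 ≤ (κ * s) ^ 2 := by
      calc (K ^ 10) ^ 2 = K ^ 20 := by ring
        _ ≤ κ ^ 2 * lam := hC
        _ = (κ * s) ^ 2 := by rw [mul_pow, hs2]
    exact (pow_le_pow_iff_left₀ (by positivity) (by positivity) (by norm_num)).1 h1
  have hK10 : 1024 ≤ K ^ 10 := by
    have : (2 : ℝ) ^ 10 ≤ K ^ 10 := pow_le_pow_left₀ (by norm_num) hK 10
    linarith
  have hs1 : 1 ≤ s := by
    have h1 : κ * s ≤ 1 * s := mul_le_mul_of_nonneg_right hκ1 hs0.le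
    linarith
  have hlam20 : K ^ 20 ≤ lam := by
    have h1 : κ ^ 2 ≤ 1 := pow_le_one₀ hκ.le hκ1
    calc K ^ 20 ≤ κ ^ 2 * lam := hC
      _ ≤ 1 * lam := mul_le_mul_of_nonneg_right h1 hl0.le
      _ = lam := one_mul _
  set η := 1 / s ^ 3 with hη
  have hη0 : 0 < η := by positivity
  have hη1 : η ≤ 1 := by
    rw [hη, div_le_one (by positivity)]
    exact one_le_pow₀ hs1
  have hy : ∀ p ∈ S, ∀ q ∈ S, |ht 0 q - ht 0 p| ≤ 2 * 1 := by
    intro p hp q hq
    have h1 := (hbox p hp).2.2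
    have h2 := (hbox q hq).2.2
    unfold ht
    have e : q.2 - 0 * q.1 - (p.2 - 0 * p.1) = q.2 - p.2 := by ring
    rw [e]
    exact (abs_sub _ _).trans (by linarith)
  have hNC' : NC (#Q : ℝ) M (8 * (κ / 8) * (1 * 1)) S := by
    have e : 8 * (κ / 8) * (1 * 1) = κ * 1 := by ring
    rw [e]
    exact hNC
  have hstrip := light_vert (st := 0) (by positivity : 0 < κ / 8) one_pos one_pos hy hNC'
  have hlong : 4 * K * (4 / (κ / 8 * η) + 2) ≤ lam ^ 2 := by
    have e : 4 / (κ / 8 * η) = 32 * s ^ 3 / κ := by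
      rw [hη]; field_simp; ring
    rw [e]
    have h1 : 32 * s ^ 3 / κ * K ^ 10 ≤ 32 * lam ^ 2 := by
      rw [div_mul_eq_mul_div, div_le_iff₀ hκ]
      calc 32 * s ^ 3 * K ^ 10 ≤ 32 * s ^ 3 * (κ * s) :=
            mul_le_mul_of_nonneg_left hκs (by positivity)
        _ = 32 * (s ^ 2) ^ 2 * κ := by ring
        _ = 32 * lam ^ 2 * κ := by rw [hs2]
    have h2 : 256 * K ≤ K ^ 10 := by
      have h3 : (2 : ℝ) ^ 9 ≤ K ^ 9 := pow_le_pow_left₀ (by norm_num) hK 9
      calc 256 * K ≤ K ^ 9 * K := mul_le_mul_of_nonneg_right (by linarith) hK0.le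
        _ = K ^ 10 := by ring
    have h4 : 4 * K * (32 * s ^ 3 / κ) ≤ lam ^ 2 / 2 := by
      have h5 : (256 * K) * (32 * s ^ 3 / κ) ≤ 32 * lam ^ 2 := by
        calc (256 * K) * (32 * s ^ 3 / κ) ≤ K ^ 10 * (32 * s ^ 3 / κ) :=
              mul_le_mul_of_nonneg_right h2 (by positivity)
          _ = 32 * s ^ 3 / κ * K ^ 10 := by ring
          _ ≤ _ := h1
      linarith
    have h6 : 4 * K * 2 ≤ lam ^ 2 / 2 := by
      have h7 : 16 * K ≤ K ^ 20 := by
        have h3 : (2 : ℝ) ^ 19 ≤ K ^ 19 := pow_le_pow_left₀ (by norm_num) hK 19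
        calc 16 * K ≤ K ^ 19 * K := mul_le_mul_of_nonneg_right (by linarith) hK0.le
          _ = K ^ 20 := by ring
      have h8 : lam ≤ lam ^ 2 := by nlinarith
      linarith
    linarith
  have hQ2 : 2 * K ^ 7 * lam ^ 2 ≤ (#Q : ℝ) ^ 2 := by
    have h1 : (lam ^ 2) ^ 2 ≤ (#Q : ℝ) ^ 2 := pow_le_pow_left₀ (by positivity) hQlam 2
    have h2 : 2 * K ^ 7 ≤ lam ^ 2 := by
      have h3 : 2 * K ^ 7 ≤ K ^ 20 := by
        have h4 : (2 : ℝ) ^ 13 ≤ K ^ 13 := pow_le_pow_left₀ (by norm_num) hK 13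
        calc 2 * K ^ 7 ≤ K ^ 13 * K ^ 7 :=
              mul_le_mul_of_nonneg_right (by linarith) (by positivity)
          _ = K ^ 20 := by ring
      have h8 : lam ≤ lam ^ 2 := by nlinarith
      linarith
    calc 2 * K ^ 7 * lam ^ 2 ≤ lam ^ 2 * lam ^ 2 := mul_le_mul_of_nonneg_right h2 (by positivity)
      _ = (lam ^ 2) ^ 2 := by ring
      _ ≤ _ := h1
  have hM' : 8 * K ^ 8 ≤ M := by
    have h4 : (2 : ℝ) ^ 12 ≤ K ^ 12 := pow_le_pow_left₀ (by norm_num) hK 12
    calc 8 * K ^ 8 ≤ K ^ 12 * K ^ 8 := mul_le_mul_of_nonneg_right (by linarith) (by positivity)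
      _ = K ^ 20 := by ring
      _ ≤ M := hM
  have hmain := normdrop (st := 0) h hSQ hR hQ2 hQ0 (by positivity : 0 < κ / 8) hη0 one_pos
    one_pos hM' hlong hy hstrip
  refine ⟨_, filter_subset _ _, jview_mono hmain ?_, ?_, ?_⟩
  · have h4 : (2 : ℝ) ^ 19 ≤ K ^ 19 := pow_le_pow_left₀ (by norm_num) hK 19
    calc 2 * K ≤ K ^ 19 * K := mul_le_mul_of_nonneg_right (by linarith) hK0.le
      _ = K ^ 20 := by ring
  · intro w hw x hx
    have h1 := (mem_filter.1 hw).2.near hx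
    have e : (2 / (κ / 8) * (1 / 1) + η * (1 / 1) : ℝ) = 16 / κ + η := by
      field_simp; ring
    rw [e, sub_zero] at h1
    have h2 : 1 ≤ 1 / κ := by rw [le_div_iff₀ hκ]; linarith
    have h3 : 20 / κ = 16 / κ + 4 * (1 / κ) := by ring
    linarith
  · intro w hw x hx y hy
    have h1 := (mem_filter.1 hw).2.abs_sub_le hx hy
    have e : (η * (1 / 1) : ℝ) = η := by ring
    rw [e] at h1
    have h2 : (x - y) ^ 2 ≤ η ^ 2 := by
      rw [← sq_abs (x - y)]
      exact pow_le_pow_left₀ (abs_nonneg _) h1 2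
    calc lam ^ 3 * (x - y) ^ 2 ≤ lam ^ 3 * η ^ 2 := mul_le_mul_of_nonneg_left h2 (by positivity)
      _ = 1 := by
          rw [hη, ← hs2]
          field_simp

end Vale.Agent.P065.H549
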